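import Vale.Agent.P088.R2.H561.P.PH2
import Vale.Agent.P088.R2.H281.P.PBas

/-!
# P088, stage 3: the flat pass, row P-H2 without hypotheses
-/

namespace Vale.Agent.P088.R2.H561.P

/-- **Row P-H2**, unconditional. -/
theorem pH2 (n : ℕ) : H660.P.RowPH2 n :=
  rowPH2 n (H281.P.rowPBas n) (H281.P.sz n)

end Vale.Agent.P088.R2.H561.P
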