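import Vale.Agent.P088.R2.H850.P.Ins
import Vale.Agent.P088.R2.H747.P.Zf
import Vale.Agent.P088.R2.H858.P.Mir
import Vale.Agent.P088.R2.H281.P.PSup
import Vale.Agent.P088.R2.H591.X.F0

/-!
# P088, stage 3: the flat pass, the zone theorems of the leaves `P1`, `P2`
-/

open MeasureTheory Set Filter
open scoped ContDiff Topology

noncomputable section

namespace Vale.Agent.P088.R2.H561.P

open Vale.Agent.P088.LR
open Vale.Agent.P088.HY hiding dd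
open Vale.Agent.P088.R2.H961.GW Vale.Agent.P088.R2.H551.E
open Vale.Agent.P088.R2.H31.EP Vale.Agent.P088.R2.H660.P Vale.Agent.P088.R2.H747.P
open Vale.Agent.P088.R2.H747.A (GG ee)
open Vale.Agent.P088.R2.H867.EP (Zo)

variable {n : ℕ}

/-- The conclusion of the abstract theorem. -/
def ZPc (n : ℕ) (εz C₁ β κ ρ₁ CP C N₁ ε : ℝ) : Prop :=
  ∀ (σ τ : Sl (VV n) (Fin n)) (Ω S : Set (VV n)) (θ W G K χ : VV n → ℝ)
    (h e : Fin n → VV n → ℝ),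
    σ.Ok univ θ → τ.Ok univ θ → (∀ z, σ.ρ z = 1) → (∀ i z, σ.k i z = 0) → Sm univ W →
    Sm univ χ → IsOpen Ω → Sm Ω G → Sm Ω K →
    (∀ i, Sm Ω (h i)) → (∀ i, Sm Ω (e i)) → IsClosed S → S ⊆ Ω → (∀ z, z ∉ S → χ z = 0) →
    (∀ z ∈ Ω, Dt σ τ 0 0 W G K h e κ C₁ C β ε εz z ∧ N₁ ≤ G z) →
    Zone σ τ univ θ 0 0 W χ ((MP σ τ W G ρ₁).sm fun z => χ z ^ 2)
      (coP σ τ W G (om4 σ τ χ) CP)

/-- The constants of the abstract theorem as functions. -/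
theorem zp_fun (h3 : 3 ≤ n) {C₁ : ℝ} (hC₁ : 1 ≤ C₁) : ∃ β εz CP : ℝ, 0 < β ∧ 0 < εz ∧ 0 < CP ∧
    ∃ (ρ₁ : ℝ → ℝ) (N₁ ε : ℝ → ℝ → ℝ), (∀ κ, 0 < ρ₁ κ) ∧ (∀ κ C, 0 < ε κ C) ∧
      ∀ κ C : ℝ, 0 < κ → κ ≤ 1 → 1 ≤ C →
        ZPc n εz C₁ β κ (ρ₁ κ) CP C (N₁ κ C) (ε κ C) := by
  haveI : Nonempty (Fin n) := ⟨⟨0, by omega⟩⟩
  obtain ⟨β, εz, CP, hβ, hεz, hCP, hZ⟩ := zoneP (E := VV n) (ι := Fin n)
    (by rw [Fintype.card_fin]; exact h3) hC₁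
  refine ⟨β, εz, CP, hβ, hεz, hCP, ?_⟩
  have key : ∀ κ : ℝ, ∃ ρ₁ : ℝ, 0 < ρ₁ ∧ ∀ C : ℝ, ∃ N₁ ε : ℝ, 0 < ε ∧
      (0 < κ → κ ≤ 1 → 1 ≤ C → ZPc n εz C₁ β κ ρ₁ CP C N₁ ε) := by
    intro κ
    by_cases hκ : 0 < κ ∧ κ ≤ 1
    · obtain ⟨ρ₁, h1, h3⟩ := hZ κ hκ.1 hκ.2
      refine ⟨ρ₁, h1, fun C => ?_⟩
      by_cases hC : 1 ≤ C
      · obtain ⟨N₁, ε, -, h5, h6⟩ := h3 C hC
        refine ⟨N₁, ε, h5, fun _ _ _ => ?_⟩
        intro σ τ Ω S θ W G K χ h e a1 a2 a3 a4 a5 a6 a7 a8 a9 a10 a11 a12 a13 a14 a15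
        exact h6 σ τ univ Ω S θ 0 0 W G K χ h e a1 a2 a3 a4 contDiffOn_const contDiffOn_const
          a5 a6 a7 (subset_univ _) a12 (fun z hz => a13 hz.2) (fun z _ => a14 z) a8 a9 a10 a11
          a15
      · exact ⟨1, 1, one_pos, fun _ _ h => absurd h hC⟩
    · exact ⟨1, one_pos, fun _ => ⟨1, 1, one_pos, fun h1 h2 _ => absurd ⟨h1, h2⟩ hκ⟩⟩
  choose ρ₁ h1 N₁ ε h3 h4 using key
  exact ⟨ρ₁, N₁, ε, h1, h3, fun κ C a b c => h4 κ C a b c⟩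

/-- The leaf of a side. -/
def lf (b : Bool) : Zo := bif b then .P1 else .P2

/-- The zone inequality in the slots of the side `b`. -/
def ZnB (n : ℕ) (c CP : Cst → ℝ) : Prop := EvC fun q => ∀ d : Pk n, PkOk q d → ∀ b : Bool,
  Zone (sP d b) (tP d b) univ 1 0 0 (d.W q) (d.ch q (lf b))
    ((MP (sP d b) (tP d b) (d.W q) (GG q d) (c q)).sm fun z => d.ch q (lf b) z ^ 2)
    (coP (sP d b) (tP d b) (d.W q) (GG q d) (om4 (sP d b) (tP d b) (d.ch q (lf b))) (CP q))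

theorem znB (h3n : 3 ≤ n) (hW : RowPW n) : ∃ c CP : Cst → ℝ,
    ((∀ q, 0 < c q) ∧ NB_rT c) ∧ ((∀ q, 0 < CP q) ∧ NB_rT CP) ∧ ZnB n c CP := by
  obtain ⟨C₁, hC₁, C, hC, hC1, hI⟩ := H850.P.ev_dt hW
  obtain ⟨β, εz, CP, hβ, hεz, hCP, ρ₁, N₁, ε, h1, h3, hZ⟩ := zp_fun h3n hC₁
  have hCε : ∀ q : Cst, C q.b_ε = C q := fun q => by
    have a1 := hC q.b_ε
    have a2 := hC q
    rw [← a1, ← a2]
    rfl
  have ev := hI (fun _ => β) (fun _ => 1) (fun q => ε (kP q) (C q)) (fun q => N₁ (kP q) (C q)) εz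
    (fun _ => rfl) (fun _ => hβ) (fun _ => rfl) (fun _ => one_pos)
    (fun q => by
      show ε (kP q.b_ε) (C q.b_ε) = _
      rw [hCε q]
      rfl) (fun q => h3 _ _)
    (fun q => by
      show N₁ (kP q.b_M₀) (C q.b_M₀) = _
      rw [hC q]
      rfl) hεz
  refine ⟨fun q => ρ₁ (kP q), fun _ => CP, ⟨fun q => h1 _, fun _ => rfl⟩,
    ⟨fun _ => hCP, fun _ => rfl⟩, ?_⟩
  refine ((ev.and (H281.P.rowPSup n)).and (EvC.litSm n)).mono ?_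
  rintro q ⟨⟨⟨k0, k1, hi⟩, hs⟩, hl⟩ d hd b
  obtain ⟨o1, o2, o3, o5, o4, o6'⟩ := hi d hd b
  have o6 : ∀ z ∈ OmP q d b, Dt (sP d b) (tP d b) 0 0 (d.W q) (GG q d) (KP q d) (hP b) (ee d)
      (kP q) C₁ (C q) β (ε (kP q) (C q)) εz z ∧ N₁ (kP q) (C q) ≤ GG q d z := fun z hz =>
    ⟨(o6' z hz).1, (o6' z hz).2.1⟩
  obtain ⟨s1, s2, s3, s4⟩ := hs d hd
  have hW : Sm univ (d.W q) := (H281.A.W_sm hd (hl d hd)).contDiffOn
  have ok : d.sx.Ok univ 1 := fx_ok hd.rg.sm₁ hd.rg.sy₁ isOpen_univ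
  have ot : d.sy.Ok univ 1 := fy_ok hd.rg.sm₂ hd.rg.sy₂ isOpen_univ
  have hz : ∀ z, z ∉ tsupport (d.ch q (lf b)) → d.ch q (lf b) z = 0 := fun z hz =>
    image_eq_zero_of_notMem_tsupport hz
  have hρ := sP_ρ d b
  have hk := sP_k d b
  cases b
  · exact hZ (kP q) (C q) k0 k1 (hC1 q) d.sy d.sx (OmP q d false) (tsupport (d.ch q .P2)) 1
      (d.W q) (GG q d) (KP q d) (d.ch q .P2) (hP false) (ee d) ot ok hρ hk hW s2 o1 o2 o3 o4 o5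
      (isClosed_tsupport _) s4 hz o6
  · exact hZ (kP q) (C q) k0 k1 (hC1 q) d.sx d.sy (OmP q d true) (tsupport (d.ch q .P1)) 1
      (d.W q) (GG q d) (KP q d) (d.ch q .P1) (hP true) (ee d) ok ot hρ hk hW s1 o1 o2 o3 o4 o5
      (isClosed_tsupport _) s3 hz o6

/-- **The row of the leaves `P1`, `P2`** from row P-W. -/
theorem zrp_of (h3 : 3 ≤ n) (hW : RowPW n) : H558.G.ZRP (H591.X.F0 n) := by
  obtain ⟨c, CP, hc, hC, hB⟩ := znB h3 hW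
  refine H591.X.ZRP.of hc hC ?_ ?_
  · exact hB.mono fun q h d hd => h d hd true
  · refine (hB.and (EvC.litSm n)).mono ?_
    rintro q ⟨h, hl⟩ d hd
    have hW : Sm univ (d.W q) := (H281.A.W_sm hd (hl d hd)).contDiffOn
    have e : om4 d.sy d.sx (d.ch q .P2) = omP d (d.ch q .P2) := by
      funext z
      unfold om4 omP
      ring
    have key := H858.P.mir_pk hd hW (h d hd false)
    have key2 : d.Zone q (d.ch q .P2)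
      ((MPm d.sx d.sy (d.W q) (GG q d) (c q)).sm fun z => d.ch q .P2 z ^ 2)
      (coPm d.sx d.sy (d.W q) (GG q d) (om4 d.sy d.sx (d.ch q .P2)) (CP q)) := key
    rw [e] at key2
    exact key2

end Vale.Agent.P088.R2.H561.P
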