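import Vale.Agent.P088.R2.H561.P.Rd
import Vale.Agent.P088.R2.H768.A.RowWd
import Vale.Agent.P088.R2.H912.W.PG2

/-!
# P088, stage 3: the flat pass, row P-H2
-/

open Set Filter
open scoped ContDiff Topology

noncomputable section

namespace Vale.Agent.P088.R2.H561.P

open Vale.Agent.P088.LR
open Vale.Agent.P088.HY hiding dd
open Vale.Agent.P088.R2.H644 hiding qq
open Vale.Agent.P088.R2.H961.GW Vale.Agent.P088.R2.H960.W
open Vale.Agent.P088.R2.H31.EP Vale.Agent.P088.R2.H230.W Vale.Agent.P088.R2.H660.P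
open Vale.Agent.P088.R2.H710.GP (GD US)
open Vale.Agent.P088.R2.H747.A (rr lS lS₁ lS₂ D₂ ff GG NG ee hh OmB slow_near)

variable {n : ℕ} {q : Cst} {d : Pk n} {z : VV n} {b : Bool} {ε₂ : ℝ} {C : Cst → ℝ}

/-- The geometric part of row P-BAS. -/
def PGeo (n : ℕ) : Prop := ∀ ε₀ : Cst → ℝ, NB_σ ε₀ → (∀ q, 0 < ε₀ q) →
  EvC fun q => ∀ d : Pk n, PkOk q d → ∀ b : Bool, ∀ z ∈ OmP q d b,
    Geo (sP d b) (tP d b) (d.u q) (rr d) (fun l => ee d l z) (fun l => hP b l z) (ε₀ q)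
      (q.σ / (40 * q.R)) z

/-- The smallness of the constants. -/
structure Nq (n : ℕ) (ε₂ : ℝ) (C : Cst → ℝ) (q : Cst) : Prop where
  pc : H281.P.PC n q
  gc : H644.Pf.Gc n q
  e1 : q.e₁ ≤ 1 / 1000
  rT : q.rT * q.p₁ ≤ 1 / 100000
  dD : cD2 n q.e₁ * q.ε ≤ ε₂ / 20
  εs : q.ε ≤ ε₂ / 4
  RC : C q * (q.R)⁻¹ ≤ ε₂ / 20 * kP q

/-- The sizes at a point. -/
structure Szq (ε₂ : ℝ) (q : Cst) (d : Pk n) (b : Bool) (z : VV n) : Prop where
  G0 : 0 < GG q d z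
  k0 : 0 < kP q
  k1 : kP q ≤ 1 / 100
  k2 : kP q ≤ ε₂ / 40
  N0 : 0 ≤ d.N q z
  w : nn (gr (sP d b) (d.W q) z) + 2 * d.N q z ≤ 2 * kP q * GG q d z
  L1 : 97 / 100 ≤ lS₁ q (rr d z)
  L2 : lS₁ q (rr d z) ≤ 103 / 100
  L' : |lS₂ q (rr d z)| ≤ ε₂ / 20 * kP q
  K : kP q * GG q d z ≤ KP q d z
  Φ2 : 0 ≤ deriv (deriv d.Φ) (d.u q z)

theorem rr_bd (N : Nq n ε₂ C q) (hz : z ∈ OmP q d b) : 41 ≤ q.p₁ ∧ q.p₁ - 1 ≤ rr d z ∧
    rr d z < 2 * q.p₁ + 1 ∧ 0 < rr d z ∧ 2 * q.p₁ + 1 ≤ q.r₁ * Real.exp (-1) := by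
  have hp := H281.P.p₁_big N.pc.rad
  obtain ⟨-, h1, h2, -⟩ := hz
  have h3 : q.p₁ - 1 < rr d z := Real.lt_sqrt_of_sq_lt h1
  have h4 : rr d z < 2 * q.p₁ + 1 := by
    show √(d.r2 z) < 2 * q.p₁ + 1
    rw [Real.sqrt_lt' (by linarith)]
    exact h2
  refine ⟨hp, h3.le, h4, by linarith, ?_⟩
  have h5 := N.pc.rd
  have h6 := N.pc.rc
  refine nonneg_le_nonneg_of_sq_le_sq (by linarith) ?_
  nlinarith

theorem in_US (N : Nq n ε₂ C q) (hd : PkOk q d) (hz : z ∈ OmP q d b) :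
    z ∈ (US q : Set (VV n)) := by
  have hp := H281.P.p₁_big N.pc.rad
  have h1 := (abs_le.1 (H710.GP.dist_le N.pc.toGD hd z)).1
  have h2 : r2 (gi d.s₁) z < (2 * q.p₁ + 1) ^ 2 := hz.2.2.1
  show qq z < (3 * q.p₁) ^ 2
  nlinarith

/-- **The structure `H2` on the pass.** -/
theorem h2_at {ε₁ g : ℝ} (N : Nq n ε₂ C q) (hε : 0 < ε₂) (hd : PkOk q d)
    (hO : IsOpen (OmB q d))
    (hW : Wd (OmB q d) d.Φ (deriv d.Φ) (deriv (deriv d.Φ)) (lS q) (lS₁ q) (lS₂ q) (D₂ q)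
      (d.u q) (rr d))
    (hE : Set.EqOn (d.W q) (wt d.Φ (lS q) (D₂ q) (d.u q) (rr d)) (OmB q d))
    (hz : z ∈ OmP q d b) (e1 : ε₁ ≤ ε₂ / 100) (e2 : ε₁ ≤ 1 / 100)
    (e3 : ε₁ * q.p₁ ≤ 1 / 20000)
    (Ge : Geo (sP d b) (tP d b) (d.u q) (rr d) (fun l => ee d l z) (fun l => hP b l z) ε₁ g z)
    (sz : Szq ε₂ q d b z) (dr : H644.Pf.Dr (C q) q d z) :
    H2 (sP d b) (d.W q) (fun l => ee d l z) (fun l => hP b l z) (KP q d z)
      (deriv (deriv d.Φ) (d.u q z)) ε₂ z := by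
  obtain ⟨hp, r1, r2', r0, rc⟩ := rr_bd N hz
  have hB : z ∈ OmB q d := hz.1
  have hR : 1 ≤ q.R := N.pc.inf.R1
  have o := okP hd b hO
  obtain ⟨s20, s01, s11, s02, -⟩ := slow_near hd r0 (lt_of_lt_of_le r2' rc)
  have G0 := sz.G0
  have ε0 := Ge.ε0
  -- the gradient
  have gE : gr (sP d b) (d.W q) z = (d.N q z + GG q d z) • gr (sP d b) (d.u q) z +
      (GG q d z * lS₁ q (rr d z)) • gr (sP d b) (rr d) z := by
    have h1 : gr (sP d b) (d.W q) z =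
        gr (sP d b) (wt d.Φ (lS q) (D₂ q) (d.u q) (rr d)) z := by
      funext i
      exact D_congr (sP d b) hO hE i hB
    rw [h1, gr_wt o hW hB]
    have h2 : D₂ q 0 1 (d.u q z + lS q (rr d z)) (rr d z) = 0 := s01
    rw [h2, add_zero]
    rfl
  have DW : ∀ i j, (sP d b).D i ((sP d b).D j (d.W q)) z =
      d.N q z * (sP d b).D i ((sP d b).D j (d.u q)) z +
      deriv (deriv d.Φ) (d.u q z) * ((sP d b).D i (d.u q) z * (sP d b).D j (d.u q) z) +
      GG q d z * ((sP d b).D i ((sP d b).D j (d.u q)) z +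
        lS₁ q (rr d z) * (sP d b).D i ((sP d b).D j (rr d)) z +
        lS₂ q (rr d z) * ((sP d b).D i (rr d) z * (sP d b).D j (rr d) z)) +
      GG q d z * (((sP d b).D i (d.u q) z + lS₁ q (rr d z) * (sP d b).D i (rr d) z) *
        ((sP d b).D j (d.u q) z + lS₁ q (rr d z) * (sP d b).D j (rr d) z)) := by
    intro i j
    have h1 : (sP d b).D i ((sP d b).D j (d.W q)) z =
        (sP d b).D i ((sP d b).D j (wt d.Φ (lS q) (D₂ q) (d.u q) (rr d))) z :=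
      D_congr (sP d b) hO (fun z hz => D_congr (sP d b) hO hE j hz) i hB
    have h2 : D₂ q 0 1 (d.u q z + lS q (rr d z)) (rr d z) = 0 := s01
    have h3 : D₂ q 1 1 (d.u q z + lS q (rr d z)) (rr d z) = 0 := s11
    have h4 : D₂ q 0 2 (d.u q z + lS q (rr d z)) (rr d z) = 0 := s02
    have h5 : D₂ q 2 0 (d.u q z + lS q (rr d z)) (rr d z) = GG q d z := s20
    have h6 : D₂ q 1 0 (d.u q z + lS q (rr d z)) (rr d z) = GG q d z := rfl
    rw [h1, DD_wt o o hW hB, h2, h3, h4, h5, h6]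
    have h7 : deriv d.Φ (d.u q z) = d.N q z := rfl
    rw [h7]
    ring
  -- the size of `Φ'`
  have NG0 : 0 ≤ NG q d z := add_nonneg sz.N0 G0.le
  have hw : nn (gr (sP d b) (d.W q) z) ≤ 8 * q.rT * (d.N q z + GG q d z) := by
    refine nn_le_of_sq (mul_nonneg (by linarith [N.pc.rT0]) NG0) ?_
    have h1 := hz.2.2.2.le
    have h2 : Wc2 q d b z = dd (gr (sP d b) (d.W q) z) (gr (sP d b) (d.W q) z) := by
      unfold Wc2 dd gr
      exact Finset.sum_congr rfl fun i _ => pow_two _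
    rw [h2] at h1
    exact h1
  have NG' : d.N q z ≤ 1 / 100 * GG q d z := by
    have h1 := nn_nonneg (gr (sP d b) (d.W q) z)
    have h2 := sz.w
    have h3 : kP q * GG q d z ≤ 1 / 100 * GG q d z := mul_le_mul_of_nonneg_right sz.k1 G0.le
    linarith
  have hN := N_pt Ge G0 sz.L1 sz.L2 sz.N0 NG' gE (by linarith [N.pc.rT0]) hw
  have hKd : KP q d z = GG q d z * lS₁ q (rr d z) / rr d z := rfl
  have hL0 : 0 < lS₁ q (rr d z) := by linarith [sz.L1]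
  have K0 : 0 < KP q d z := by rw [hKd]; positivity
  have KG : GG q d z * lS₁ q (rr d z) = KP q d z * rr d z := by rw [hKd]; field_simp
  have hb : deriv (deriv d.Φ) (d.u q z) ≤ 53 / 100 * KP q d z := by
    have h1 : deriv (deriv d.Φ) (d.u q z) ≤ (2 + 1 / 20) * deriv d.Φ (d.u q z) :=
      hd.top.k1 _ (by
        have := hB.2.2.2.2.2.1
        exact this.le)
    have h2 : H509.Rad.gr q.e₁ rp (rr d z) ≤ 252 / 1000 :=
      gr_pass N.pc.rad N.e1 (by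
        have h3 : prP q.e₁ (1 / 4) = q.p₁ := rfl
        rw [h3]; linarith) (by
        have h3 : prP q.e₁ (1 / 4) = q.p₁ := rfl
        rw [h3]; exact r1)
    have h3 : H509.Rad.gr q.e₁ rp (rr d z) =
        rr d z * (1 - 1 / lS₁ q (rr d z)) := rfl
    rw [h3] at h2
    -- `(L - 1) G = r (1 - 1 / L) K`
    have h4 : (lS₁ q (rr d z) - 1) * GG q d z =
        rr d z * (1 - 1 / lS₁ q (rr d z)) * KP q d z := by
      rw [hKd]; field_simp
    have h5 : (lS₁ q (rr d z) - 1) * GG q d z ≤ 252 / 1000 * KP q d z := by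
      rw [h4]; exact mul_le_mul_of_nonneg_right h2 K0.le
    -- `G ≤ 2.2 p₁ K`
    have h6 : GG q d z ≤ 22 / 10 * q.p₁ * KP q d z := by
      have h7 : 97 / 100 * GG q d z ≤ GG q d z * lS₁ q (rr d z) := by
        have := mul_le_mul_of_nonneg_left sz.L1 G0.le
        linarith
      have h8 : KP q d z * rr d z ≤ KP q d z * (2 * q.p₁ + 1) :=
        mul_le_mul_of_nonneg_left r2'.le K0.le
      have h9 : KP q d z * (2 * q.p₁ + 1) ≤ KP q d z * (97 / 100 * (22 / 10 * q.p₁)) :=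
        mul_le_mul_of_nonneg_left (by linarith) K0.le
      linarith
    have h10 : (2 * (8 * q.rT) + 3 * ε₁) * GG q d z ≤ 1 / 1000 * KP q d z := by
      have h11 : 0 ≤ 2 * (8 * q.rT) + 3 * ε₁ := by linarith [N.pc.rT0]
      have h12 := mul_le_mul_of_nonneg_left h6 h11
      have h13 : (2 * (8 * q.rT) + 3 * ε₁) * (22 / 10 * q.p₁) ≤ 1 / 1000 := by
        have := N.rT
        linarith
      have h14 := mul_le_mul_of_nonneg_right h13 K0.le
      linarith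
    have h15 : deriv d.Φ (d.u q z) = d.N q z := rfl
    rw [h15] at h1
    linarith
  -- the radius
  have hr : ∀ i j, |rr d z * (sP d b).D i ((sP d b).D j (rr d)) z -
      (dl i j - hP b i z * hP b j z)| ≤ ε₂ / 10 := by
    intro i j
    have h1 := DD_r2 N.pc.toGD hd (in_US N hd hz) b i j
    have hs : ∀ z ∈ OmB q d, d.r2 z = rr d z * rr d z := fun z hz => by
      have : 0 ≤ d.r2 z := (lt_of_le_of_lt (sq_nonneg _) hz.1).le
      exact (Real.mul_self_sqrt this).symm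
    rw [DD_sq o hW.cr.su hs hB] at h1
    have aR : ∀ i, |(sP d b).D i (rr d) z - hP b i z| ≤ ε₁ := fun i =>
      (abs_le_nn (gr (sP d b) (rr d) z - fun l => hP b l z) i).trans Ge.rx
    have ah : ∀ i, |hP b i z| ≤ 1 := fun i => by
      have := abs_le_nn (fun l => hP b l z) i
      rwa [nn_one Ge.hh] at this
    have bR : ∀ i, |(sP d b).D i (rr d) z| ≤ 2 := fun i => by
      have h1 := abs_add_le ((sP d b).D i (rr d) z - hP b i z) (hP b i z)
      rw [sub_add_cancel] at h1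
      linarith [aR i, ah i]
    have h2 : |(sP d b).D i (rr d) z * (sP d b).D j (rr d) z - hP b i z * hP b j z| ≤
        3 * ε₁ := by
      have e : (sP d b).D i (rr d) z * (sP d b).D j (rr d) z - hP b i z * hP b j z =
          ((sP d b).D i (rr d) z - hP b i z) * (sP d b).D j (rr d) z +
          hP b i z * ((sP d b).D j (rr d) z - hP b j z) := by ring
      rw [e]
      refine (abs_add_le _ _).trans ?_
      rw [abs_mul, abs_mul]
      have h3 : |(sP d b).D i (rr d) z - hP b i z| * |(sP d b).D j (rr d) z| ≤ ε₁ * 2 :=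
        mul_le_mul (aR i) (bR j) (abs_nonneg _) ε0
      have h4 : |hP b i z| * |(sP d b).D j (rr d) z - hP b j z| ≤ 1 * ε₁ :=
        mul_le_mul (ah i) (aR j) (abs_nonneg _) zero_le_one
      linarith
    have e : rr d z * (sP d b).D i ((sP d b).D j (rr d)) z -
        (dl i j - hP b i z * hP b j z) =
        1 / 2 * (2 * (rr d z * (sP d b).D i ((sP d b).D j (rr d)) z +
          (sP d b).D i (rr d) z * (sP d b).D j (rr d) z) - 2 * dl i j) -
        ((sP d b).D i (rr d) z * (sP d b).D j (rr d) z - hP b i z * hP b j z) := by ring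
    rw [e]
    refine (abs_sub _ _).trans ?_
    rw [abs_mul, abs_of_pos (by norm_num : (0 : ℝ) < 1 / 2)]
    have := N.dD
    linarith
  have hu : ∀ i j, |(sP d b).D i ((sP d b).D j (d.u q)) z| ≤ C q * (q.R)⁻¹ := fun i j => by
    refine (sP_D2 hO hW.cu.su hB b i j).trans ?_
    have h1 := dr.u2 0 (by norm_num)
    rwa [H644.Pf.wu_far (by
      have h2 : (q.p₁ - 1) ^ 2 < d.r2 z := hz.2.1
      nlinarith)] at h1
  exact h2_pt Ge G0 sz.k0 sz.k1 sz.L1 sz.L2 sz.N0 sz.Φ2 hb gE DW sz.w sz.K hε sz.L' e1 e2 N.RC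
    sz.k2 (fun i j => (sP_s0 hd hR N.pc.ε0.le b i j z).trans (by linarith [N.εs])) hu hr

theorem h2_le {σ : Sl (VV n) (Fin n)} {W : VV n → ℝ} {e h : Fin n → ℝ} {K b ε ε' : ℝ}
    {z : VV n} (H : H2 σ W e h K b ε z) (hε : ε ≤ ε') : H2 σ W e h K b ε' z :=
  ⟨H.K0, H.b0, H.b1, H.hh, H.ee, fun i => (H.he i).trans hε, fun i j => (H.ss i j).trans hε,
    fun i j => (H.WW i j).trans (mul_le_mul_of_nonneg_right hε H.K0.le)⟩

theorem sP_ρ (d : Pk n) (b : Bool) (z : VV n) : (sP d b).ρ z = 1 := by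
  cases b <;> rfl

theorem sP_k (d : Pk n) (b : Bool) (i : Fin n) (z : VV n) : (sP d b).k i z = 0 := by
  have h : ∀ x : V n, pd i (fun _ : V n => (1 : ℝ)) x = 0 := fun x => by
    show fderiv ℝ (fun _ : V n => (1 : ℝ)) x _ = 0
    simp
  cases b
  · show -((n : ℝ) - 1) * pd i (fun _ : V n => (1 : ℝ)) z.2 = 0
    rw [h, mul_zero]
  · show -((n : ℝ) - 1) * pd i (fun _ : V n => (1 : ℝ)) z.1 = 0
    rw [h, mul_zero]

/-- The bound of `Γ₂`. -/
theorem g2_at {εG b' : ℝ} {e h : Fin n → ℝ} (hd : PkOk q d) (hO : IsOpen (OmB q d))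
    (hW : Sm (OmB q d) (d.W q)) (hz : z ∈ OmP q d b) (hR : 1 ≤ q.R) (h0 : 0 ≤ q.ε)
    (hεG : 0 < εG) (hε : q.ε ≤ εG / 4)
    (hG2 : ∀ (σ : Sl (VV n) (Fin n)) (U : Set (VV n)) (θ W : VV n → ℝ) (e h : Fin n → ℝ)
      (K b w₁ δ₁ δ₂ : ℝ) (z : VV n), σ.Ok U θ → (∀ z, σ.ρ z = 1) → (∀ i z, σ.k i z = 0) →
      Sm U W → z ∈ U → H2 σ W e h K b εG z → (∀ i, |σ.D i W z| ≤ w₁) →
      (∀ l i j, |σ.D l (σ.s i j) z| ≤ δ₁) →
      (∀ l k i j, |σ.D l (σ.D k (σ.s i j)) z| ≤ δ₂) → δ₁ * w₁ ≤ εG * K →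
      δ₂ * w₁ ^ 2 ≤ εG * K ^ 2 →
      Ch.G2 σ W z ≤ ((Fintype.card (Fin n) : ℝ) - 1 + 3 / 10) * K ^ 2)
    (H : H2 (sP d b) (d.W q) e h (KP q d z) b' εG z) (sz : Szq ε₂ q d b z) :
    Ch.G2 (sP d b) (d.W q) z ≤ ((Fintype.card (Fin n) : ℝ) - 1 + 3 / 10) * KP q d z ^ 2 := by
  have hk : 0 < kP q * GG q d z := mul_pos sz.k0 sz.G0
  refine hG2 (sP d b) (OmB q d) _ (d.W q) e h (KP q d z) b' (2 * (kP q * GG q d z)) q.ε q.ε z
    (okP hd b hO) (sP_ρ d b) (sP_k d b) hW hz.1 H (fun i => ?_)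
    (fun l i j => sP_s1 hd hR h0 b l i j z) (fun l k i j => sP_s2 hd hR h0 b l k i j z) ?_ ?_
  · have h1 : |(sP d b).D i (d.W q) z| ≤ nn (gr (sP d b) (d.W q) z) :=
      abs_le_nn (gr (sP d b) (d.W q) z) i
    have h2 := sz.w
    have h3 := sz.N0
    linarith
  · have h1 : q.ε * (2 * (kP q * GG q d z)) ≤ εG / 4 * (2 * (kP q * GG q d z)) :=
      mul_le_mul_of_nonneg_right hε (by positivity)
    have h2 := mul_le_mul_of_nonneg_left sz.K hεG.le
    have h3 : 0 ≤ εG * (kP q * GG q d z) := by positivity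
    linarith
  · have h1 : q.ε * (2 * (kP q * GG q d z)) ^ 2 ≤ εG / 4 * (2 * (kP q * GG q d z)) ^ 2 :=
      mul_le_mul_of_nonneg_right hε (by positivity)
    have h2 : (kP q * GG q d z) ^ 2 ≤ KP q d z ^ 2 := pow_le_pow_left₀ hk.le sz.K 2
    have h3 := mul_le_mul_of_nonneg_left h2 hεG.le
    linarith

/-! ## The constants -/

/-- The tolerance of the geometry. -/
def εg (ε : ℝ) (q : Cst) : ℝ := min (min (ε / 100) (1 / 100)) (1 / (20000 * (|q.p₁| + 1)))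

theorem εg_pos {ε : ℝ} (h : 0 < ε) (q : Cst) : 0 < εg ε q := by
  unfold εg
  have : 0 < 20000 * (|q.p₁| + 1) := by positivity
  positivity

theorem evN (n : ℕ) {ε₂ : ℝ} (hε : 0 < ε₂) {C : Cst → ℝ} (hC : NB_M₀ C) :
    EvC fun q => 0 < kP q → Nq n ε₂ C q := by
  have c1 : EvC fun q => q.e₁ ≤ 1 / 1000 :=
    EvC.at_e₁ (fun _ t => t ≤ 1 / 1000) fun _ => sml_le (by norm_num)
  have c2 : EvC fun q => 0 < q.p₁ → q.rT * q.p₁ ≤ 1 / 100000 :=
    EvC.at_rT (fun q t => 0 < q.p₁ → t * q.p₁ ≤ 1 / 100000) fun q => by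
      by_cases h : 0 < q.p₁
      · refine (sml_le (a := 1 / 100000 / q.p₁) (by positivity)).mono fun t h1 _ => ?_
        rwa [le_div_iff₀ h] at h1
      · exact Eventually.of_forall fun _ h1 => absurd h1 h
  have c3 : EvC fun q => cD2 n q.e₁ * q.ε ≤ ε₂ / 20 :=
    EvC.at_ε (fun q t => cD2 n q.e₁ * t ≤ ε₂ / 20) fun q => by
      have h1 : 0 < |cD2 n q.e₁| + 1 := by positivity
      refine ev_sml (a := ε₂ / 20 / (|cD2 n q.e₁| + 1)) (by positivity) fun t h2 h3 => ?_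
      rw [le_div_iff₀ h1] at h3
      have h4 := mul_le_mul_of_nonneg_right (le_abs_self (cD2 n q.e₁)) h2.le
      nlinarith
  have c4 : EvC fun q => q.ε ≤ ε₂ / 4 :=
    EvC.at_ε (fun _ t => t ≤ ε₂ / 4) fun _ => sml_le (by positivity)
  have c5 : EvC fun q => 0 < kP q → C q.b_M₀ * (q.R)⁻¹ ≤ ε₂ / 20 * kP q :=
    EvC.at_R (fun q t => 0 < kP q → C q.b_M₀ * t⁻¹ ≤ ε₂ / 20 * kP q) fun q => by
      by_cases h : 0 < kP q
      · refine ev_top (max 1 (|C q.b_M₀| / (ε₂ / 20 * kP q))) fun t h1 _ => ?_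
        have h2 : 0 < t := lt_of_lt_of_le one_pos ((le_max_left _ _).trans h1)
        have h3 := (le_max_right _ _).trans h1
        rw [div_le_iff₀ (by positivity)] at h3
        rw [← div_eq_mul_inv, div_le_iff₀ h2]
        have := le_abs_self (C q.b_M₀)
        linarith
      · exact Eventually.of_forall fun _ h1 => absurd h1 h
  refine (((((H281.P.evPC n).and (H644.Pf.Gc.ev n)).and c1).and c2).and (c3.and (c4.and c5))).mono
    fun q h hk => ?_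
  obtain ⟨⟨⟨⟨a1, a2⟩, a3⟩, a4⟩, a5, a6, a7⟩ := h
  have hp := H281.P.p₁_big a1.rad
  exact ⟨a1, a2, a3, a4 (by linarith), a5, a6, by
    have := a7 hk
    rwa [hC q] at this⟩

/-- **Row P-H2** from the geometry and the sizes. -/
theorem ph2 (n : ℕ) (hG : PGeo n) (hS : RowPSz n) : RowPH2 n := by
  rcases Nat.eq_zero_or_pos n with hn | hn
  · -- no points
    intro ε₂ h2
    refine (hG (fun _ => 1) (fun _ => rfl) (fun _ => one_pos)).mono fun q hq d hd b z hz => ?_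
    exfalso
    have h := (hq d hd b z hz).ee
    subst hn
    simp [dd] at h
  intro ε₂' hε2'
  obtain ⟨εG, hεG, hG2⟩ := H912.Pg.rowPG2 (VV n) (Fin n)
  obtain ⟨ε₂, hε2d⟩ : ∃ ε₂, ε₂ = min ε₂' εG := ⟨_, rfl⟩
  have hε2 : 0 < ε₂ := by rw [hε2d]; positivity
  have le1 : ε₂ ≤ ε₂' := by rw [hε2d]; exact min_le_left _ _
  have le2 : ε₂ ≤ εG := by rw [hε2d]; exact min_le_right _ _
  obtain ⟨C, hC, -, hdr⟩ := H644.Pf.dr_gen (n := n) hn (fun _ => 1) (fun q => 2 * q.p₁ + 1)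
    (fun _ => rfl) (fun _ => rfl)
  have b1 := hG (εg ε₂) (fun _ => rfl) (εg_pos hε2)
  have b2 := hS (fun _ => 1) (fun _ => min (1 / 100) (ε₂ / 40)) (fun _ => rfl) (fun _ => rfl)
    (fun _ => by positivity)
  refine ((b1.and b2).and ((evN n hε2 hC).and (H768.A.rowWd n))).mono fun q h d hd b z hz => ?_
  obtain ⟨⟨a1, k0, k1, a2⟩, a3, a4⟩ := h
  have N := a3 k0
  obtain ⟨hO, hW, hE⟩ := a4 d hd
  obtain ⟨s1, s2, -, s4, s5, s6, s7, -, s9, -, s11, -⟩ := a2 d hd b z hz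
  have k2 : kP q ≤ 1 / 100 := k1.trans (min_le_left _ _)
  have k3 : kP q ≤ ε₂ / 40 := k1.trans (min_le_right _ _)
  have sz : Szq ε₂ q d b z :=
    { G0 := lt_of_lt_of_le one_pos s1
      k0 := k0
      k1 := k2
      k2 := k3
      N0 := s2
      w := s4
      L1 := s5
      L2 := s6
      L' := s7.trans (mul_le_mul_of_nonneg_right ((min_le_right _ _).trans (by linarith)) k0.le)
      K := s9
      Φ2 := s11 }
  obtain ⟨hp, r1, r2', r0, rc⟩ := rr_bd N hz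
  have hR : 1 ≤ q.R := N.pc.inf.R1
  have hB := hz.1
  have dr : H644.Pf.Dr (C q) q d z := hdr q N.gc one_pos (by linarith) rc d hd z
    (by linarith [hB.2.2.1]) (by linarith [hB.2.2.2.1])
    (by
      have h1 := hz.2.1
      nlinarith) hz.2.2.1
  have e3 : εg ε₂ q * q.p₁ ≤ 1 / 20000 := by
    have h1 : εg ε₂ q ≤ 1 / (20000 * (|q.p₁| + 1)) := min_le_right _ _
    have h2 : 0 < 20000 * (|q.p₁| + 1) := by positivity
    have h3 := mul_le_mul_of_nonneg_right h1 (by linarith : 0 ≤ q.p₁)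
    refine h3.trans ?_
    rw [abs_of_nonneg (by linarith : 0 ≤ q.p₁), div_mul_eq_mul_div, one_mul,
      div_le_iff₀ (by linarith)]
    linarith
  have H := h2_at N hε2 hd hO hW hE hz ((min_le_left _ _).trans (min_le_left _ _))
    ((min_le_left _ _).trans (min_le_right _ _)) e3 (a1 d hd b z hz) sz dr
  have hWs : Sm (OmB q d) (d.W q) := hW.sm.congr hE
  exact ⟨⟨_, h2_le H le1⟩, g2_at hd hO hWs hz hR N.pc.ε0.le hεG
    (N.εs.trans (by linarith)) hG2 (h2_le H le2) sz⟩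

/-- **Row P-H2.** -/
theorem rowPH2 (n : ℕ) (hB : RowPBas n) (hS : RowPSz n) : RowPH2 n := by
  refine ph2 n (fun ε₀ h0 h1 => ?_) hS
  refine (hB (fun _ => 1) ε₀ (fun _ => rfl) h0 (fun _ => one_pos) h1).mono
    fun q hq d hd b z hz => ?_
  exact ((hq d hd b).2.2.2.2.2 z hz).2.2.2.2.2

end Vale.Agent.P088.R2.H561.P
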