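import Vale.Agent.P088.R2.H561.P.Pt
import Vale.Agent.P088.R2.H660.P.Rows
import Vale.Agent.P088.R2.H281.P.Sp
import Vale.Agent.P088.R2.H644.N.PkH
import Vale.Agent.P088.R2.H747.A.Prf
import Vale.Agent.P088.R2.H973.W.DD

/-!
# P088, stage 3: the flat pass, the profile, the distance and the tensors in the slots
-/

open Set Filter
open scoped ContDiff Topology

noncomputable section

namespace Vale.Agent.P088.R2.H561.P

open Vale.Agent.P088.LR
open Vale.Agent.P088.HY hiding dd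
open Vale.Agent.P088.R2.H644 hiding qq
open Vale.Agent.P088.R2.H961.GW Vale.Agent.P088.R2.H960.W
open Vale.Agent.P088.R2.H31.EP Vale.Agent.P088.R2.H230.W Vale.Agent.P088.R2.H660.P
open Vale.Agent.P088.R2.H710.GP (GD US)
open Vale.Agent.P088.R2.H973.W (DD Nk DD_le)

/-! ## The profile -/

/-- `r (1 - 1 / L) ≤ 252/1000` from `p₁ - 1` on. -/
theorem gr_pass {e₁ r : ℝ} (hr : H509.Rad.Ok e₁ rp) (h1 : e₁ ≤ 1 / 1000)
    (hp : 16 ≤ prP e₁ (1 / 4)) (h : prP e₁ (1 / 4) - 1 ≤ r) :
    H509.Rad.gr e₁ rp r ≤ 252 / 1000 := by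
  set p : ℝ := prP e₁ (1 / 4) with hpd
  have hgp : H509.Rad.gr e₁ rp p = 1 / 4 := hr.gr_eq (t := 1 / 4) (by norm_num) le_rfl
  rcases le_or_gt p r with h2 | h2
  · exact (hr.after (t := 1 / 4) (by norm_num) le_rfl h2).trans (by norm_num)
  have hr15 : 15 ≤ r := by linarith
  have Lp : 1 ≤ prL e₁ p := by
    by_contra hc
    rw [not_le] at hc
    have h3 : 0 < prL e₁ p := hr.Lpos p
    have h4 : H509.Rad.gr e₁ rp p = p * (1 - 1 / prL e₁ p) := rfl
    have h5 : 1 < 1 / prL e₁ p := by rw [lt_div_iff₀ h3]; linarith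
    have h6 : p * (1 - 1 / prL e₁ p) ≤ 0 := mul_nonpos_of_nonneg_of_nonpos (by linarith) (by linarith)
    rw [h4] at hgp
    linarith
  have hL : ∀ s ∈ Icc r p, 1 ≤ prL e₁ s := fun s hs =>
    Lp.trans (hr.pp.antitone_Lf (show s ∈ Ioi (0 : ℝ) from by
      show 0 < s
      linarith [hs.1]) (show p ∈ Ioi (0 : ℝ) from by
      show 0 < p
      linarith) hs.2)
  have hd : ∀ s ∈ Icc r p, HasDerivAt (fun s => H509.Rad.gr e₁ rp s + 1 / 500 * s)
      ((prL e₁ s - 1 - prE e₁ s) / prL e₁ s + 1 / 500 * 1) s := fun s hs =>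
    (hr.gr_deriv (show 0 < s by linarith [hs.1])).add ((hasDerivAt_id s).const_mul (1 / 500))
  have hm : MonotoneOn (fun s => H509.Rad.gr e₁ rp s + 1 / 500 * s) (Icc r p) := by
    refine monotoneOn_of_deriv_nonneg (convex_Icc r p)
      (fun s hs => (hd s hs).continuousAt.continuousWithinAt)
      (fun s hs => (hd s (interior_subset hs)).differentiableAt.differentiableWithinAt)
      fun s hs => ?_
    have hs' := interior_subset hs
    rw [(hd s hs').deriv]
    have a1 := hL s hs'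
    have s15 : 15 ≤ s := hr15.trans hs'.1
    have s0 : 0 < s := by linarith
    have a2 : prE e₁ s ≤ ez 2 s + e₁ := hr.pp.ef_le s0
    have a3 := H747.A.ez_far s15
    have a4 : 0 ≤ (prL e₁ s - 1 - prE e₁ s) / prL e₁ s + 1 / 500 := by
      rw [div_add' _ _ _ (by linarith : prL e₁ s ≠ 0)]
      exact div_nonneg (by linarith) (by linarith)
    linarith
  have h3 := hm (left_mem_Icc.2 h2.le) (right_mem_Icc.2 h2.le) h2.le
  simp only at h3
  rw [hgp] at h3
  linarith

/-! ## The directions of the slots -/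

variable {n : ℕ} {q : Cst} {d : Pk n} {z : VV n}

/-- The directions of the critical slot. -/
def vb (b : Bool) (i : Fin n) : VV n := bif b then (Pi.single i 1, 0) else (0, Pi.single i 1)

theorem nvb (b : Bool) (i : Fin n) : ‖vb b i‖ ≤ 1 := by
  cases b
  · show ‖((0 : V n), (Pi.single i 1 : V n))‖ ≤ 1
    rw [Prod.norm_mk, norm_zero, Pi.norm_single, norm_one]
    norm_num
  · show ‖((Pi.single i 1 : V n), (0 : V n))‖ ≤ 1
    rw [Prod.norm_mk, norm_zero, Pi.norm_single, norm_one]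
    norm_num

theorem sP_D (d : Pk n) (b : Bool) (i : Fin n) (f : VV n → ℝ) :
    (sP d b).D i f = fun z => fderiv ℝ f z (vb b i) := by
  funext z
  cases b
  · show d.sy.D i f z = _
    simp only [Sl.D, Pk.sy, sly, one_mul, vb, cond_false]
  · show d.sx.D i f z = _
    simp only [Sl.D, Pk.sx, slx, one_mul, vb, cond_true]

theorem sP_D1 {U : Set (VV n)} (hU : IsOpen U) {f : VV n → ℝ} (hf : Sm U f) (hz : z ∈ U)
    (b : Bool) (i : Fin n) : |(sP d b).D i f z| ≤ ‖iteratedFDeriv ℝ 1 f z‖ := by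
  have h := DD_le hU hf (l := [vb b i]) (fun v hv => by
    rw [List.mem_singleton] at hv
    rw [hv]
    exact nvb b i) hz
  rw [sP_D]
  exact h

theorem sP_D2 {U : Set (VV n)} (hU : IsOpen U) {f : VV n → ℝ} (hf : Sm U f) (hz : z ∈ U)
    (b : Bool) (i j : Fin n) :
    |(sP d b).D i ((sP d b).D j f) z| ≤ ‖iteratedFDeriv ℝ 2 f z‖ := by
  have h := DD_le hU hf (l := [vb b i, vb b j]) (fun v hv => by
    rw [List.mem_cons, List.mem_singleton] at hv
    rcases hv with hv | hv
    · rw [hv]; exact nvb b i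
    · rw [hv]; exact nvb b j) hz
  rw [sP_D, sP_D]
  exact h

theorem okP (h : PkOk q d) (b : Bool) {U : Set (VV n)} (hU : IsOpen U) :
    (sP d b).Ok U (tht (fun _ : V n => (1 : ℝ)) fun _ : V n => (1 : ℝ)) := by
  cases b
  · exact H644.Pf.ok_y h hU
  · exact H644.Pf.ok_x h hU

/-! ## The tensors in the slots -/

theorem sP_bk (h : PkOk q d) (hR : 1 ≤ q.R) (hε : 0 ≤ q.ε) (b : Bool) (i j : Fin n) :
    H222.Bk 2 (univ : Set (VV n)) q.ε
      (fun z => (sP d b).s i j z - H222.dl i j) := by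
  cases b
  · have h1 := (H222.ck_s₂ (k := 2) h hR hε (by norm_num) i j).comp_right
      (ContinuousLinearMap.snd ℝ (V n) (V n)) (ContinuousLinearMap.norm_snd_le ℝ (V n) (V n))
      (V := univ) isOpen_univ (fun _ _ => mem_univ _)
    exact h1
  · have h1 := (H222.ck_s₁ (k := 2) h hR hε (by norm_num) i j).comp_right
      (ContinuousLinearMap.fst ℝ (V n) (V n)) (ContinuousLinearMap.norm_fst_le ℝ (V n) (V n))
      (V := univ) isOpen_univ (fun _ _ => mem_univ _)
    exact h1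

theorem dl_eq (i j : Fin n) : (H222.dl i j : ℝ) = H660.P.dl i j := rfl

theorem sP_s0 (h : PkOk q d) (hR : 1 ≤ q.R) (hε : 0 ≤ q.ε) (b : Bool) (i j : Fin n) (z : VV n) :
    |(sP d b).s i j z - H660.P.dl i j| ≤ q.ε := by
  have h1 := (sP_bk h hR hε b i j).val (mem_univ z)
  rwa [Real.norm_eq_abs, dl_eq] at h1

theorem sP_sub (b : Bool) (i j : Fin n) (l : Fin n) : (sP d b).D l ((sP d b).s i j) =
    (sP d b).D l (fun z => (sP d b).s i j z - H222.dl i j) := by
  rw [sP_D, sP_D]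
  funext z
  rw [fderiv_sub_const]

theorem sP_s1 (h : PkOk q d) (hR : 1 ≤ q.R) (hε : 0 ≤ q.ε) (b : Bool) (l i j : Fin n)
    (z : VV n) : |(sP d b).D l ((sP d b).s i j) z| ≤ q.ε := by
  have h1 := sP_bk h hR hε b i j
  rw [sP_sub]
  exact (sP_D1 h1.o h1.s (mem_univ z) b l).trans (h1.b 1 (by norm_num) z (mem_univ z))

theorem sP_s2 (h : PkOk q d) (hR : 1 ≤ q.R) (hε : 0 ≤ q.ε) (b : Bool) (l k i j : Fin n)
    (z : VV n) : |(sP d b).D l ((sP d b).D k ((sP d b).s i j)) z| ≤ q.ε := by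
  have h1 := sP_bk h hR hε b i j
  rw [sP_sub]
  exact (sP_D2 h1.o h1.s (mem_univ z) b l k).trans (h1.b 2 (by norm_num) z (mem_univ z))

/-! ## The distance -/

/-- The constant of the second derivatives of the distance. -/
def cD2 (n : ℕ) (e₁ : ℝ) : ℝ := H222.c1 n 2 (3 * prP e₁ (1 / 4)) * H222.cG n 2

theorem bk_dist2 (hq : GD n q) (h : PkOk q d) : H222.Bk 2 (US q : Set (VV n))
    (cD2 n q.e₁ * q.ε) (fun z : VV n => r2 (gi d.s₁) z - qq z) := by
  have hp := Cst.p₁_ge hq.rad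
  have hR : 1 ≤ q.R := hq.inf.R1
  have h1 := H222.ck_gi (k := 2) h hR hq.ε0.le (by norm_num) hq.ε1 hq.εn
  have ho : IsOpen (US q : Set (VV n)) := isOpen_lt H222.continuous_qq continuous_const
  have h2 := H222.bk_r2_sub (k := 2) (r0 := 3 * q.p₁) ho (by linarith) (fun z hz => le_of_lt hz)
    (O := univ) (fun _ _ => mem_univ _) h1
  refine h2.le (le_of_eq ?_)
  unfold cD2 Cst.p₁
  ring

/-- The second derivatives of `|x - y|²`. -/
theorem DD_qq (b : Bool) (i j : Fin n) (z : VV n) :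
    (sP d b).D i ((sP d b).D j (fun z : VV n => qq z)) z = 2 * H660.P.dl i j := by
  rw [sP_D, sP_D]
  simp only
  have e1 : (fun z : VV n => fderiv ℝ (fun z : VV n => qq z) z (vb b j)) =
      fun z : VV n => 2 * ∑ k, (z.1 k - z.2 k) * ((vb b j).1 k - (vb b j).2 k) := by
    funext z
    rw [(H710.GP.qq_fd z).fderiv, H710.GP.Qd_apply]
  rw [e1]
  have e2 : HasFDerivAt (fun z : VV n => 2 * ∑ k, (z.1 k - z.2 k) *
      ((vb b j).1 k - (vb b j).2 k)) ((2 : ℝ) • ∑ k, ((vb b j).1 k - (vb b j).2 k) •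
      ((ContinuousLinearMap.proj (R := ℝ) (φ := fun _ : Fin n => ℝ) k).comp
        (ContinuousLinearMap.fst ℝ (V n) (V n) - ContinuousLinearMap.snd ℝ (V n) (V n)))) z := by
    refine HasFDerivAt.const_mul (HasFDerivAt.fun_sum fun k _ => ?_) 2
    have h1 : HasFDerivAt (fun z : VV n => z.1 k - z.2 k)
        ((ContinuousLinearMap.proj (R := ℝ) (φ := fun _ : Fin n => ℝ) k).comp
        (ContinuousLinearMap.fst ℝ (V n) (V n) - ContinuousLinearMap.snd ℝ (V n) (V n))) z :=
      ((ContinuousLinearMap.proj (R := ℝ) (φ := fun _ : Fin n => ℝ) k).comp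
        (ContinuousLinearMap.fst ℝ (V n) (V n) -
          ContinuousLinearMap.snd ℝ (V n) (V n))).hasFDerivAt
    exact h1.mul_const _
  rw [e2.fderiv]
  simp only [_root_.smul_apply, _root_.sum_apply, ContinuousLinearMap.comp_apply,
    _root_.sub_apply, ContinuousLinearMap.coe_fst', ContinuousLinearMap.coe_snd',
    ContinuousLinearMap.proj_apply, smul_eq_mul]
  congr 1
  cases b
  · simp only [vb, cond_false, Pi.sub_apply, Pi.zero_apply, zero_sub, H660.P.dl]
    rw [Finset.sum_eq_single j]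
    · by_cases h : i = j
      · subst h; simp
      · simp [h, Ne.symm h]
    · intro k _ hk
      simp [hk]
    · intro h; exact absurd (Finset.mem_univ _) h
  · simp only [vb, cond_true, Pi.sub_apply, Pi.zero_apply, sub_zero, H660.P.dl]
    rw [Finset.sum_eq_single j]
    · by_cases h : i = j
      · subst h; simp
      · simp [h, Ne.symm h]
    · intro k _ hk
      simp [hk]
    · intro h; exact absurd (Finset.mem_univ _) h

/-- The second derivatives of `r²`. -/
theorem DD_r2 (hq : GD n q) (h : PkOk q d) (hz : z ∈ (US q : Set (VV n))) (b : Bool)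
    (i j : Fin n) : |(sP d b).D i ((sP d b).D j d.r2) z - 2 * H660.P.dl i j| ≤
      cD2 n q.e₁ * q.ε := by
  have h1 := bk_dist2 hq h
  have h2 := (sP_D2 (d := d) h1.o h1.s hz b i j).trans (h1.b 2 (by norm_num) z hz)
  have o := okP h b h1.o
  have sq : Sm (US q : Set (VV n)) (fun z : VV n => qq z) := qq_sm.contDiffOn
  have e0 : (fun z : VV n => (r2 (gi d.s₁) z - qq z) + qq z) = d.r2 := by
    funext z
    show r2 (gi d.s₁) z - qq z + qq z = r2 (gi d.s₁) z
    ring
  have e1 := Ch.DD_add o o h1.s sq i j hz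
  rw [e0, DD_qq] at e1
  have e2 : (sP d b).D i ((sP d b).D j (fun z : VV n => r2 (gi d.s₁) z - qq z)) z =
      (sP d b).D i ((sP d b).D j d.r2) z - 2 * H660.P.dl i j := by
    rw [e1]
    ring
  rw [e2] at h2
  exact h2

end Vale.Agent.P088.R2.H561.P
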