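import Vale.Agent.P088.R2.H747.P.Dt
import Vale.Agent.P088.R2.H660.P.Rows

/-!
# P088, stage 3: the flat pass, the literal statements of the abstract theorem and of the instance
-/

open MeasureTheory Set Filter
open scoped ContDiff Topology

noncomputable section

namespace Vale.Agent.P088.R2.H561.P

open Vale.Agent.P088.LR
open Vale.Agent.P088.HY hiding dd
open Vale.Agent.P088.R2.H961.GW Vale.Agent.P088.R2.H551.E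
open Vale.Agent.P088.R2.H31.EP Vale.Agent.P088.R2.H660.P Vale.Agent.P088.R2.H747.P
open Vale.Agent.P088.R2.H747.A (GG ee)

/-- The function of the cost, symmetric in the slots. -/
def om2 {E ι : Type*} [NormedAddCommGroup E] [NormedSpace ℝ E] [Fintype ι] (σ τ : Sl E ι)
    (χ : E → ℝ) (z : E) : ℝ := dD σ χ z + dD τ χ z + σ.Λ χ z ^ 2 + τ.Λ χ z ^ 2

/-- **The abstract theorem `zoneP`.**  Order of the constants: `εz`; `C₁`; `β`, `κ₀`; `κ`; `ρ₁`,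
`CP`; `C`; `N₁`, `ε`. -/
def ZoneP (E ι : Type*) [NormedAddCommGroup E] [NormedSpace ℝ E] [Fintype ι] [DecidableEq ι]
    [MeasureSpace E] : Prop :=
  ∃ εz : ℝ, 0 < εz ∧ ∀ C₁ : ℝ, 1 ≤ C₁ → ∃ β κ₀ : ℝ, 0 < β ∧ 0 < κ₀ ∧
  ∀ κ : ℝ, 0 < κ → κ ≤ κ₀ → ∃ ρ₁ CP : ℝ, 0 < ρ₁ ∧ 0 < CP ∧ ∀ C : ℝ, 1 ≤ C →
  ∃ N₁ ε : ℝ, 1 ≤ N₁ ∧ 0 < ε ∧
  ∀ (σ τ : Sl E ι) (Ω S : Set E) (θ W G K χ : E → ℝ) (h e : ι → E → ℝ),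
    σ.Ok univ θ → τ.Ok univ θ → Sm univ W → Sm univ χ → IsOpen Ω → Sm Ω G → Sm Ω K →
    (∀ i, Sm Ω (h i)) → (∀ i, Sm Ω (e i)) → IsClosed S → S ⊆ Ω → (∀ z, z ∉ S → χ z = 0) →
    (∀ z ∈ Ω, Dt σ τ 0 0 W G K h e κ C₁ C β ε εz z ∧ N₁ ≤ G z) →
    Zone σ τ univ θ 0 0 W χ ((MP σ τ W G ρ₁).sm fun z => χ z ^ 2)
      (coP σ τ W G (om2 σ τ χ) CP)

/-- **The instance.** -/
def InsP (n : ℕ) : Prop := ∃ C₁ : ℝ, 1 ≤ C₁ ∧ ∃ C : Cst → ℝ, NB_M₀ C ∧ (∀ q, 1 ≤ C q) ∧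
  ∀ (εz β κ₀ : ℝ) (N₁ ε : Cst → ℝ), 0 < εz → 0 < β → 0 < κ₀ → NB_M₀ N₁ → NB_ε ε →
  (∀ q, 0 < ε q) → EvC fun q => 0 < kP q ∧ kP q ≤ κ₀ ∧ ∀ d : Pk n, PkOk q d → ∀ b : Bool,
    IsOpen (OmP q d b) ∧ Sm (OmP q d b) (GG q d) ∧ Sm (OmP q d b) (KP q d) ∧
    (∀ i, Sm (OmP q d b) (hP b i)) ∧ (∀ i, Sm (OmP q d b) (ee d i)) ∧
    ∀ z ∈ OmP q d b, Dt (sP d b) (tP d b) 0 0 (d.W q) (GG q d) (KP q d) (hP b) (ee d) (kP q) C₁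
      (C q) β (ε q) εz z ∧ N₁ q ≤ GG q d z

end Vale.Agent.P088.R2.H561.P
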