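import Vale.Agent.P088.R2.H561.P.Zn
import Vale.Agent.P088.R2.H561.P.RowH2
import Vale.Agent.P088.R2.H167.P.PW
import Vale.Agent.P088.R2.H222.P.PSz

/-!
# P088, stage 3: the flat pass, the leaves `P1`, `P2`
-/

namespace Vale.Agent.P088.R2.H561.P

/-- **The row of the leaves `P1`, `P2`.** -/
theorem zrp {n : ℕ} (h3 : 3 ≤ n) : H558.G.ZRP (H591.X.F0 n) :=
  zrp_of h3 (H167.P.rowPW (by omega) (H281.P.rowPBas n) (H222.P.rowPSz n) (pH2 n))

end Vale.Agent.P088.R2.H561.P
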